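import Mathlib

set_option autoImplicit false

namespace Crest.Agent.GS

open Finset

/-- uniform average over a finite type -/
noncomputable def av {X : Type} [Fintype X] (f : X → ℝ) : ℝ := (∑ x, f x) / (Fintype.card X : ℝ)

section basic
variable {X : Type} [Fintype X]

lemma av_add (f g : X → ℝ) : av (fun x => f x + g x) = av f + av g := by
  simp [av, sum_add_distrib, add_div]

lemma av_sub (f g : X → ℝ) : av (fun x => f x - g x) = av f - av g := by
  simp [av, sum_sub_distrib, sub_div]

lemma av_const_mul (c : ℝ) (f : X → ℝ) : av (fun x => c * f x) = c * av f := by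
  simp [av, ← mul_sum, mul_div_assoc]

lemma av_mul_const (c : ℝ) (f : X → ℝ) : av (fun x => f x * c) = av f * c := by
  simp only [av, ← sum_mul]; ring

lemma av_sum {κ : Type} (s : Finset κ) (f : κ → X → ℝ) :
    av (fun x => ∑ k ∈ s, f k x) = ∑ k ∈ s, av (f k) := by
  simp only [av]
  rw [sum_comm, sum_div]

lemma av_mono {f g : X → ℝ} (h : ∀ x, f x ≤ g x) : av f ≤ av g := by
  unfold av
  exact div_le_div_of_nonneg_right (sum_le_sum fun x _ => h x) (Nat.cast_nonneg _)

lemma av_nonneg {f : X → ℝ} (h : ∀ x, 0 ≤ f x) : 0 ≤ av f := by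
  unfold av
  exact div_nonneg (sum_nonneg fun x _ => h x) (Nat.cast_nonneg _)

lemma av_const [Nonempty X] (c : ℝ) : av (fun _ : X => c) = c := by
  have : (Fintype.card X : ℝ) ≠ 0 := by exact_mod_cast Fintype.card_ne_zero
  simp [av]

lemma av_zero : av (fun _ : X => (0 : ℝ)) = 0 := by simp [av]

lemma av_congr {f g : X → ℝ} (h : ∀ x, f x = g x) : av f = av g := by
  have : f = g := funext h
  rw [this]

lemma av_equiv {Y : Type} [Fintype Y] (e : X ≃ Y) (f : Y → ℝ) : av (fun x => f (e x)) = av f := by
  unfold av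
  rw [Fintype.card_congr e, Equiv.sum_comp e f]

lemma av_prod {Y : Type} [Fintype Y] (f : X × Y → ℝ) :
    av f = av (fun x => av (fun y => f (x, y))) := by
  unfold av
  rw [Fintype.sum_prod_type, Fintype.card_prod, ← sum_div]
  push_cast
  rw [div_div, mul_comm]

lemma eq_zero_of_av_eq_zero [Nonempty X] {f : X → ℝ} (h : ∀ x, 0 ≤ f x) (h0 : av f = 0) (x : X) :
    f x = 0 := by
  have hc : (Fintype.card X : ℝ) ≠ 0 := by exact_mod_cast Fintype.card_ne_zero
  unfold av at h0
  rw [div_eq_zero_iff] at h0
  rcases h0 with h0 | h0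
  · exact (sum_eq_zero_iff_of_nonneg (fun y _ => h y)).1 h0 x (mem_univ _)
  · exact absurd h0 hc

end basic

section pi
variable {X κ : Type} [Fintype X] [Nonempty X] [Fintype κ] [DecidableEq κ]

lemma av_update (F : (κ → X) → ℝ) (k : κ) :
    av F = av (fun x => av (fun z => F (Function.update x k z))) := by
  let e : (κ → X) × X ≃ (κ → X) × X :=
    { toFun := fun p => (Function.update p.1 k p.2, p.1 k)
      invFun := fun p => (Function.update p.1 k p.2, p.1 k)
      left_inv := fun p => by simp
      right_inv := fun p => by simp }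
  have h1 := av_equiv e (fun p => F p.1)
  rw [av_prod, av_prod] at h1
  simp only [e, Equiv.coe_fn_mk, av_const] at h1
  exact h1.symm

lemma av_coord (f : X → ℝ) (k : κ) : av (fun x : κ → X => f (x k)) = av f := by
  rw [av_update _ k]
  simp only [Function.update_self]
  exact av_const _

lemma sum_update_of_notMem (T : Finset κ) (j : κ) (hj : j ∉ T) (g : κ → X → ℝ) (x : κ → X) (z : X) :
    ∑ i ∈ T, g i (Function.update x j z i) = ∑ i ∈ T, g i (x i) := by
  refine sum_congr rfl fun i hi => ?_
  rw [Function.update_of_ne (ne_of_mem_of_not_mem hi hj)]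

lemma prod_update_of_notMem (T : Finset κ) (j : κ) (hj : j ∉ T) (g : κ → X → ℝ) (x : κ → X) (z : X) :
    ∏ i ∈ T, g i (Function.update x j z i) = ∏ i ∈ T, g i (x i) := by
  refine prod_congr rfl fun i hi => ?_
  rw [Function.update_of_ne (ne_of_mem_of_not_mem hi hj)]

lemma av_prod_finset (g : κ → X → ℝ) (T : Finset κ) :
    av (fun x : κ → X => ∏ i ∈ T, g i (x i)) = ∏ i ∈ T, av (g i) := by
  induction T using Finset.induction_on with
  | empty => simp [av_const]
  | insert j T hj ih =>
    rw [av_update _ j]
    simp only [prod_insert hj, Function.update_self, prod_update_of_notMem T j hj]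
    simp only [av_mul_const, av_const_mul, ih]

lemma av_sum_zero (y : X → ℝ) (h0 : av y = 0) (T : Finset κ) :
    av (fun x : κ → X => ∑ i ∈ T, y (x i)) = 0 := by
  rw [av_sum]
  simp [av_coord, h0]

lemma av_sq_sum (y : X → ℝ) (h0 : av y = 0) (T : Finset κ) :
    av (fun x : κ → X => (∑ i ∈ T, y (x i)) ^ 2) = T.card * av (fun z => y z ^ 2) := by
  induction T using Finset.induction_on with
  | empty => simp [av_zero]
  | insert j T hj ih =>
    rw [av_update _ j]
    simp only [sum_insert hj, Function.update_self,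
      sum_update_of_notMem T j hj (fun _ => y)]
    have : ∀ D : ℝ, av (fun z => (y z + D) ^ 2) = av (fun z => y z ^ 2) + D ^ 2 := by
      intro D
      have : (fun z => (y z + D) ^ 2) = fun z => y z ^ 2 + ((2 * D) * y z + D ^ 2) := by
        funext z; ring
      rw [this, av_add, av_add, av_const_mul, h0, av_const]; ring
    simp only [this]
    rw [av_add, av_const, ih, card_insert_of_notMem hj]
    push_cast; ring

lemma av_four_sum (y : X → ℝ) (h0 : av y = 0) (T : Finset κ) :
    av (fun x : κ → X => (∑ i ∈ T, y (x i)) ^ 4) ≤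
      3 * (T.card : ℝ) ^ 2 * av (fun z => y z ^ 2) ^ 2 + T.card * av (fun z => y z ^ 4) := by
  induction T using Finset.induction_on with
  | empty => simp [av_zero]
  | insert j T hj ih =>
    rw [av_update _ j]
    simp only [sum_insert hj, Function.update_self,
      sum_update_of_notMem T j hj (fun _ => y)]
    have : ∀ D : ℝ, av (fun z => (y z + D) ^ 4) = av (fun z => y z ^ 4) +
        ((4 * av (fun z => y z ^ 3)) * D + ((6 * av (fun z => y z ^ 2)) * D ^ 2 + D ^ 4)) := by
      intro D
      have : (fun z => (y z + D) ^ 4) = fun z => y z ^ 4 + ((4 * D) * y z ^ 3 +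
          ((6 * D ^ 2) * y z ^ 2 + ((4 * D ^ 3) * y z + D ^ 4))) := by
        funext z; ring
      rw [this, av_add, av_add, av_add, av_add, av_const_mul, av_const_mul, av_const_mul, h0,
        av_const]; ring
    simp only [this]
    rw [av_add, av_add, av_add, av_const, av_const_mul, av_const_mul, av_sum_zero y h0,
      av_sq_sum y h0, card_insert_of_notMem hj]
    push_cast
    nlinarith [sq_nonneg (av (fun z => y z ^ 2))]

/-- weighted second moment -/
lemma av_wsm (g δ : κ → X → ℝ) (β : ℝ) (h0 : ∀ i, av (fun z => δ i z * g i z) = 0)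
    (hg : ∀ i z, 0 ≤ g i z) (hb : ∀ i z, δ i z ^ 2 * g i z ≤ β * g i z) (T : Finset κ) :
    av (fun x : κ → X => (∑ i ∈ T, δ i (x i)) ^ 2 * ∏ i ∈ T, g i (x i)) ≤
      T.card * β * ∏ i ∈ T, av (g i) := by
  induction T using Finset.induction_on with
  | empty => simp [av_zero]
  | insert j T hj ih =>
    rw [av_update _ j]
    simp only [sum_insert hj, prod_insert hj, Function.update_self,
      sum_update_of_notMem T j hj, prod_update_of_notMem T j hj]
    have hgj : 0 ≤ av (g j) := av_nonneg (hg j)
    have : ∀ D G : ℝ, 0 ≤ G → av (fun z => (δ j z + D) ^ 2 * (g j z * G)) ≤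
        (β * av (g j)) * G + av (g j) * (D ^ 2 * G) := by
      intro D G hG
      have : (fun z => (δ j z + D) ^ 2 * (g j z * G)) = fun z => G * (δ j z ^ 2 * g j z) +
          ((2 * D * G) * (δ j z * g j z) + (D ^ 2 * G) * g j z) := by
        funext z; ring
      rw [this, av_add, av_add, av_const_mul, av_const_mul, av_const_mul, h0]
      have h1 : av (fun z => δ j z ^ 2 * g j z) ≤ β * av (g j) := by
        rw [← av_const_mul]; exact av_mono (hb j)
      nlinarith [mul_le_mul_of_nonneg_left h1 hG]
    refine (av_mono fun x => this _ _ (prod_nonneg fun i _ => hg i (x i))).trans ?_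
    rw [av_add, av_const_mul, av_const_mul, av_prod_finset, card_insert_of_notMem hj]
    push_cast
    nlinarith [mul_le_mul_of_nonneg_left ih hgj]

/-- omitting one coordinate -/
lemma av_omit (y : X → ℝ) (h0 : av y = 0) (T : (κ → X) → ℝ) (j : κ)
    (hT : ∀ x z, T (Function.update x j z) = T x) (s0 : ℝ) :
    av (fun x : κ → X => ((∑ k, y (x k) - s0) ^ 2 - av (fun z => y z ^ 2)) * T x) =
      av (fun x : κ → X => (∑ k ∈ univ.erase j, y (x k) - s0) ^ 2 * T x) := by
  rw [av_update _ j]
  refine av_congr fun x => ?_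
  simp only [hT]
  have h1 : ∀ z, ∑ k, y (Function.update x j z k) = y z + ∑ k ∈ univ.erase j, y (x k) := by
    intro z
    rw [← add_sum_erase _ _ (mem_univ j), Function.update_self,
      sum_update_of_notMem _ j (notMem_erase j univ) (fun _ => y)]
  simp only [h1]
  set D := ∑ k ∈ univ.erase j, y (x k) - s0 with hD
  have : (fun z => ((y z + ∑ k ∈ univ.erase j, y (x k) - s0) ^ 2 - av (fun z => y z ^ 2)) * T x) =
      fun z => T x * y z ^ 2 + ((2 * D * T x) * y z + (D ^ 2 - av (fun z => y z ^ 2)) * T x) := by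
    funext z; rw [hD]; ring
  rw [this, av_add, av_add, av_const_mul, av_const_mul, h0, av_const]; ring

end pi

end Crest.Agent.GS
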