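import Mathlib
import Crest.Agent.GS.Av

set_option autoImplicit false

namespace Crest.Agent.GS

open Finset MeasureTheory ProbabilityTheory Filter Topology

/-- law of a real function on a finite uniform space -/
noncomputable def lawOf {X : Type} [Fintype X] (y : X → ℝ) : Measure ℝ :=
  ((Fintype.card X : ENNReal)⁻¹) • ∑ x, Measure.dirac (y x)

lemma integral_lawOf {X : Type} [Fintype X] (y : X → ℝ) {E : Type} [NormedAddCommGroup E]
    [NormedSpace ℝ E] [CompleteSpace E] (f : ℝ → E) :
    ∫ t, f t ∂(lawOf y) = ((Fintype.card X : ℝ)⁻¹) • ∑ x, f (y x) := by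
  unfold lawOf
  rw [integral_smul_measure, integral_finsetSum_measure]
  · simp [integral_dirac]
  · intro x _
    exact integrable_dirac (by simp)

lemma integral_lawOf_real {X : Type} [Fintype X] (y : X → ℝ) (f : ℝ → ℝ) :
    ∫ t, f t ∂(lawOf y) = av (fun x => f (y x)) := by
  rw [integral_lawOf, av, smul_eq_mul, div_eq_inv_mul]

instance lawOf_prob {X : Type} [Fintype X] [Nonempty X] (y : X → ℝ) :
    IsProbabilityMeasure (lawOf y) := by
  constructor
  have : (Fintype.card X : ENNReal) ≠ 0 := by exact_mod_cast Fintype.card_ne_zero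
  simp only [lawOf, Measure.smul_apply, Measure.coe_finsetSum, Finset.sum_apply, measure_univ,
    sum_const, card_univ, nsmul_eq_mul, mul_one, smul_eq_mul]
  exact ENNReal.inv_mul_cancel this (by simp)

lemma charFun_lawOf_sum {X : Type} [Fintype X] [Nonempty X] (y : X → ℝ) (N : ℕ) (c t : ℝ) :
    charFun (lawOf (fun x : Fin N → X => c * ∑ j, y (x j))) t =
      (charFun (lawOf y) (c * t)) ^ N := by
  rw [charFun_apply_real, charFun_apply_real, integral_lawOf, integral_lawOf]
  have h1 : ∀ x : Fin N → X, Complex.exp (t * ((c * ∑ j, y (x j) : ℝ) : ℂ) * Complex.I) =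
      ∏ j, Complex.exp (((c * t : ℝ) : ℂ) * (y (x j) : ℂ) * Complex.I) := by
    intro x
    rw [← Complex.exp_sum]
    congr 1
    push_cast
    rw [mul_sum, mul_sum, sum_mul]
    exact sum_congr rfl fun j _ => by ring
  simp only [h1]
  have h2 := (Fintype.prod_sum (fun (_ : Fin N) (z : X) =>
    Complex.exp (((c * t : ℝ) : ℂ) * (y z : ℂ) * Complex.I))).symm
  rw [h2]
  simp [mul_pow]

lemma clt_cell {X : Type} [Fintype X] [Nonempty X] (y : X → ℝ) (h0 : av y = 0)
    (h1 : av (fun x => y x ^ 2) = 1) (a b : ℝ) (hab : a < b) :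
    Tendsto (fun N : ℕ => av (fun x : Fin N → X =>
      if (√N)⁻¹ * ∑ j, y (x j) ∈ Set.Ioo a b then (1 : ℝ) else 0)) atTop
      (𝓝 ((gaussianReal 0 1).real (Set.Ioo a b))) := by
  let μ : ℕ → ProbabilityMeasure ℝ := fun N =>
    ⟨lawOf (fun x : Fin N → X => (√N)⁻¹ * ∑ j, y (x j)), inferInstance⟩
  let γ : ProbabilityMeasure ℝ := ⟨gaussianReal 0 1, inferInstance⟩
  have hlim : Tendsto μ atTop (𝓝 γ) := by
    refine ProbabilityMeasure.tendsto_iff_tendsto_charFun.2 fun t => ?_
    have h := tendsto_charFun_inv_sqrt_mul_pow (P := lawOf y) (X := id) aemeasurable_id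
      (by simpa [integral_lawOf_real y (fun t => t)] using h0)
      (by simpa [integral_lawOf_real y (fun t => t ^ 2)] using h1) t
    simp only [μ, γ, ProbabilityMeasure.coe_mk, charFun_lawOf_sum, charFun_gaussianReal]
    simpa [neg_div] using h
  have hfr : (γ : Measure ℝ) (frontier (Set.Ioo a b)) = 0 := by
    rw [frontier_Ioo hab]
    simp only [γ, ProbabilityMeasure.coe_mk]
    have := nullSingletonClass_gaussianReal (μ := 0) (v := 1) one_ne_zero
    exact Set.Finite.measure_zero (by simp) _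
  have h2 := ProbabilityMeasure.tendsto_measure_of_null_frontier_of_tendsto' hlim hfr
  have h3 := (ENNReal.tendsto_toReal (measure_ne_top _ _)).comp h2
  refine h3.congr fun N => ?_
  simp only [Function.comp, μ, ProbabilityMeasure.coe_mk]
  rw [← measureReal_def, ← integral_indicator_one measurableSet_Ioo, integral_lawOf_real]
  refine av_congr fun x => ?_
  simp [Set.indicator_apply]

lemma gauss_cell : ∃ κ : ℝ, 0 < κ ∧ ∀ v w : ℝ, |v| ≤ 23 → 0 < w → w ≤ 1 →
    2 * (κ * w) ≤ (gaussianReal 0 1).real (Set.Ioo (v - w) (v + w)) := by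
  refine ⟨gaussianPDFReal 0 1 24, gaussianPDFReal_pos _ _ _ one_ne_zero, fun v w hv hw hw1 => ?_⟩
  have hpos := gaussianPDFReal_pos 0 1 24 one_ne_zero
  rw [measureReal_def, gaussianReal_apply_eq_integral _ one_ne_zero,
    ENNReal.toReal_ofReal (integral_nonneg (gaussianPDFReal_nonneg _ _))]
  have h1 : ∫ _ in Set.Ioo (v - w) (v + w), gaussianPDFReal 0 1 24 ≤
      ∫ x in Set.Ioo (v - w) (v + w), gaussianPDFReal 0 1 x := by
    refine setIntegral_mono_on (by simp) (integrable_gaussianPDFReal _ _).integrableOn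
      measurableSet_Ioo fun x hx => ?_
    simp only [gaussianPDFReal_def]
    have hx2 : x ^ 2 ≤ 24 ^ 2 := by
      obtain ⟨h1, h2⟩ := hx
      obtain ⟨h3, h4⟩ := abs_le.1 hv
      exact sq_le_sq' (by linarith) (by linarith)
    refine mul_le_mul_of_nonneg_left (Real.exp_le_exp.2 ?_) (by positivity)
    simp only [sub_zero, NNReal.coe_one, mul_one]
    linarith
  refine le_trans (le_of_eq ?_) h1
  rw [setIntegral_const, Real.volume_real_Ioo_of_le (by linarith)]
  simp; ring

end Crest.Agent.GS
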