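import Mathlib
import Crest.Agent.GS.Av

set_option autoImplicit false

namespace Crest.Agent.GS

open Finset

section defs
variable {q : ℕ} (v : Fin q → ℝ) (w s : ℝ) (sel : ℝ → Fin q)

/-- small cells -/
noncomputable def gc (k : Fin q) (t : ℝ) : ℝ := if |t - v k * s| < w * s then 1 else 0
/-- big cell -/
noncomputable def gs (t : ℝ) : ℝ := if |t| ≤ 2 * s then 1 else 0
/-- tail -/
noncomputable def tl (t : ℝ) : ℝ := if 16 * s < |t| then 1 else 0
/-- pieces -/
noncomputable def pc (k : Fin q) (a b : ℝ) : ℝ :=
  (1 - tl s a) * gs s b * (if sel (a + b) = k then 1 else 0)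

noncomputable def T1 (t : Option (Option (Fin q)) → ℝ) : ℝ :=
  tl s (t none) * ∏ i, gc v w s i (t (some (some i)))
noncomputable def T2 (k : Fin q) (t : Option (Option (Fin q)) → ℝ) : ℝ :=
  pc s sel k (t none) (t (some none)) * ∏ i ∈ univ.erase k, gc v w s i (t (some (some i)))
noncomputable def T3 (t : Option (Option (Fin q)) → ℝ) : ℝ :=
  gs s (t (some none)) * ∏ i, gc v w s i (t (some (some i)))
noncomputable def Phi (t : Option (Option (Fin q)) → ℝ) : ℝ :=
  T1 v w s t + ∑ k, T2 v w s sel k t - T3 v w s t

lemma T1_update (t : Option (Option (Fin q)) → ℝ) (z : ℝ) :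
    T1 v w s (Function.update t (some none) z) = T1 v w s t := by
  simp [T1]

lemma T3_update (t : Option (Option (Fin q)) → ℝ) (z : ℝ) :
    T3 v w s (Function.update t none z) = T3 v w s t := by
  simp [T3]

lemma T2_update (k : Fin q) (t : Option (Option (Fin q)) → ℝ) (z : ℝ) :
    T2 v w s sel k (Function.update t (some (some k)) z) = T2 v w s sel k t := by
  unfold T2
  rw [Function.update_of_ne (by simp), Function.update_of_ne (by simp)]
  congr 1
  refine prod_congr rfl fun i hi => ?_
  rw [Function.update_of_ne (by simpa using ne_of_mem_erase hi)]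

lemma gc01 (k : Fin q) (t : ℝ) : gc v w s k t = 0 ∨ gc v w s k t = 1 := by
  unfold gc; split_ifs <;> simp

lemma gs01 (t : ℝ) : gs s t = 0 ∨ gs s t = 1 := by
  unfold gs; split_ifs <;> simp

lemma tl01 (t : ℝ) : tl s t = 0 ∨ tl s t = 1 := by
  unfold tl; split_ifs <;> simp

lemma gc_nonneg (k : Fin q) (t : ℝ) : 0 ≤ gc v w s k t := by
  rcases gc01 v w s k t with h | h <;> simp [h]

lemma gs_nonneg (t : ℝ) : 0 ≤ gs s t := by
  rcases gs01 s t with h | h <;> simp [h]

lemma tl_nonneg (t : ℝ) : 0 ≤ tl s t := by
  rcases tl01 s t with h | h <;> simp [h]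

lemma pc_nonneg (k : Fin q) (a b : ℝ) : 0 ≤ pc s sel k a b := by
  unfold pc
  rcases tl01 s a with h | h <;> rcases gs01 s b with h' | h' <;> split_ifs <;> simp [h, h']

lemma sum_pc_le (a b : ℝ) : ∑ k, pc s sel k a b ≤ 1 := by
  unfold pc
  rw [← mul_sum]
  rcases tl01 s a with h | h <;> rcases gs01 s b with h' | h' <;> simp [h, h']

lemma prod01 (T : Finset (Fin q)) (z : Fin q → ℝ) :
    ∏ i ∈ T, gc v w s i (z i) = 0 ∨
      (∏ i ∈ T, gc v w s i (z i) = 1 ∧ ∀ i ∈ T, |z i - v i * s| < w * s) := by
  by_cases h : ∀ i ∈ T, |z i - v i * s| < w * s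
  · right
    exact ⟨prod_eq_one fun i hi => by simp [gc, h i hi], h⟩
  · left
    push Not at h
    obtain ⟨i, hi, h⟩ := h
    exact prod_eq_zero hi (by simp [gc, h])

lemma Phi01 (t : Option (Option (Fin q)) → ℝ) : Phi v w s sel t = 0 ∨ Phi v w s sel t = 1 := by
  have h1 : ∑ k, T2 v w s sel k t = (1 - tl s (t none)) * gs s (t (some none)) *
      ∏ i ∈ univ.erase (sel (t none + t (some none))), gc v w s i (t (some (some i))) := by
    unfold T2 pc
    rw [sum_eq_single (sel (t none + t (some none)))]
    · simp
    · intro k _ hk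
      simp [Ne.symm hk]
    · simp
  unfold Phi T1 T3
  rw [h1, ← mul_prod_erase univ _ (mem_univ (sel (t none + t (some none))))]
  rcases tl01 s (t none) with h | h <;> rcases gs01 s (t (some none)) with h' | h' <;>
    rcases gc01 v w s (sel (t none + t (some none)))
      (t (some (some (sel (t none + t (some none)))))) with h'' | h'' <;>
    rcases prod01 v w s (univ.erase (sel (t none + t (some none))))
      (fun i => t (some (some i))) with h3 | ⟨h3, _⟩ <;> simp [h, h', h'', h3]

end defs

lemma av_opt {Z κ : Type} [Fintype Z] [Fintype κ] [DecidableEq κ] (F : (Option κ → Z) → ℝ) :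
    av F = av (fun a : Z => av (fun z : κ → Z => F (fun o => o.elim a z))) := by
  rw [← av_equiv (Equiv.piOptionEquivProd (β := fun _ : Option κ => Z)).symm F, av_prod]
  refine av_congr fun a => av_congr fun z => ?_
  congr 1
  funext o
  cases o <;> rfl

lemma av_three {Z κ : Type} [Fintype Z] [Fintype κ] [DecidableEq κ] (F : Z → Z → ℝ)
    (G : (κ → Z) → ℝ) :
    av (fun x : Option (Option κ) → Z => F (x none) (x (some none)) * G (fun i => x (some (some i))))
      = av (fun a => av (fun b => F a b)) * av G := by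
  rw [av_opt, ← av_mul_const]
  refine av_congr fun a => ?_
  rw [av_opt, ← av_mul_const]
  refine av_congr fun b => ?_
  simp only [Option.elim]
  exact av_const_mul _ _

theorem gadget_ineq {q : ℕ} (v : Fin q → ℝ) (w s Δ π0 : ℝ) (sel : ℝ → Fin q)
    (hw : 0 < w) (hs : 0 < s) (hπ : 0 < π0)
    (hsel : ∀ t, |t| ≤ 18 * s → |t + 4 * s - v (sel t) * s| ≤ Δ * s)
    (h2 : 2 * q * w ≤ 1) (h3 : 2 * (Δ + w) ^ 2 + 8 * q * w ^ 2 ≤ π0 / 8)
    {Z : Type} [Fintype Z] [Nonempty Z] (y : Z → ℝ) (h0 : av y = 0)
    (hV : av (fun z => y z ^ 2) ≤ s ^ 2)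
    (htail : av (fun z => if 16 * s < |y z| then y z ^ 2 else 0) ≤ s ^ 2 / 32)
    (hcell : ∀ k, π0 ≤ av (fun z => gc v w s k (y z))) :
    ∃ s0 : ℝ, av (fun x : Option (Option (Fin q)) → Z =>
      ((∑ k, y (x k) - s0) ^ 2 - av (fun z => y z ^ 2)) * Phi v w s sel (fun k => y (x k))) ≤
      -(s ^ 2 / 2 * π0 ^ q) := by
  set π : Fin q → ℝ := fun k => av (fun z => gc v w s k (y z)) with hπdef
  have hπpos : ∀ k, 0 < π k := fun k => hπ.trans_le (hcell k)
  set u : Fin q → ℝ := fun k => av (fun z => y z * gc v w s k (y z)) / π k with hu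
  have hδ0 : ∀ k, av (fun z => (y z - u k) * gc v w s k (y z)) = 0 := by
    intro k
    simp only [sub_mul]
    rw [av_sub, av_const_mul]
    have := (hπpos k).ne'
    change _ - _ / π k * π k = 0
    field_simp
    ring
  have huv : ∀ k, |u k - v k * s| ≤ w * s := by
    intro k
    have e : (u k - v k * s) * π k = av (fun z => (y z - v k * s) * gc v w s k (y z)) := by
      have := hδ0 k
      simp only [sub_mul] at this ⊢
      rw [av_sub, av_const_mul] at this ⊢
      change _ - _ * π k = 0 at this
      change _ = _ - _ * π k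
      linarith
    have a1 : av (fun z => (y z - v k * s) * gc v w s k (y z)) ≤ (w * s) * π k := by
      rw [← av_const_mul]
      refine av_mono fun z => ?_
      unfold gc
      split_ifs with h
      · simpa using (abs_lt.1 h).2.le
      · simp
    have a2 : -(w * s) * π k ≤ av (fun z => (y z - v k * s) * gc v w s k (y z)) := by
      rw [← av_const_mul]
      refine av_mono fun z => ?_
      unfold gc
      split_ifs with h
      · simpa using (abs_lt.1 h).1.le
      · simp
    rw [← e] at a1 a2
    exact abs_le.2 ⟨le_of_mul_le_mul_right a2 (hπpos k), le_of_mul_le_mul_right a1 (hπpos k)⟩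
  have hδ1 : ∀ k t, |t - v k * s| < w * s → |t - u k| ≤ 2 * (w * s) := by
    intro k t h
    have a1 := abs_le.1 (huv k)
    have a2 := abs_lt.1 h
    exact abs_le.2 ⟨by linarith, by linarith⟩
  have hδ2 : ∀ z : Fin q → ℝ, (∀ i ∈ (univ : Finset (Fin q)), |z i - v i * s| < w * s) →
      |∑ i, z i - ∑ i, u i| ≤ s := by
    intro z hz
    rw [← sum_sub_distrib]
    refine (abs_sum_le_sum_abs _ _).trans ?_
    refine (sum_le_sum fun i hi => hδ1 i _ (hz i hi)).trans ?_
    simp only [sum_const, card_univ, Fintype.card_fin, nsmul_eq_mul]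
    nlinarith
  set P : ℝ := ∏ k, π k with hP
  have hPpos : 0 < P := prod_pos fun k _ => hπpos k
  have hPge : π0 ^ q ≤ P := by
    have := prod_le_prod (s := (univ : Finset (Fin q))) (f := fun _ => π0) (g := π)
      (fun _ _ => hπ.le) (fun k _ => hcell k)
    simpa using this
  have hprodav : ∀ T : Finset (Fin q),
      av (fun z : Fin q → Z => ∏ i ∈ T, gc v w s i (y (z i))) = ∏ i ∈ T, π i := fun T =>
    av_prod_finset (fun i z => gc v w s i (y z)) T
  refine ⟨∑ i, u i - 4 * s, ?_⟩
  set s0 := ∑ i, u i - 4 * s with hs0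
  have hupd : ∀ (x : Option (Option (Fin q)) → Z) (j) (z : Z),
      (fun k => y (Function.update x j z k)) = Function.update (fun k => y (x k)) j (y z) := by
    intro x j z; funext k
    by_cases hk : k = j
    · subst hk; simp
    · simp [Function.update_of_ne hk]
  have herase : ∀ (x : Option (Option (Fin q)) → Z) (j),
      ∑ k ∈ univ.erase j, y (x k) =
        y (x none) + (y (x (some none)) + ∑ i, y (x (some (some i)))) - y (x j) := by
    intro x j
    rw [sum_erase_eq_sub (mem_univ j), Fintype.sum_option, Fintype.sum_option]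
  have e1 := av_omit y h0 (fun x => T1 v w s (fun k => y (x k))) (some none)
    (fun x z => by simp only [hupd, T1_update]) s0
  have e3 := av_omit y h0 (fun x => T3 v w s (fun k => y (x k))) none
    (fun x z => by simp only [hupd, T3_update]) s0
  have e2 := fun k => av_omit y h0 (fun x => T2 v w s sel k (fun k => y (x k))) (some (some k))
    (fun x z => by simp only [hupd, T2_update]) s0
  simp only [Phi, mul_sub, mul_add, mul_sum]
  rw [av_sub, av_add, av_sum, e1, e3]
  simp only [e2, herase]
  -- tail term
  have b1 : av (fun x : Option (Option (Fin q)) → Z =>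
      (y (x none) + (y (x (some none)) + ∑ i, y (x (some (some i)))) - y (x (some none)) - s0) ^ 2 *
        T1 v w s (fun k => y (x k))) ≤ s ^ 2 / 8 * P := by
    have c1 := av_three (κ := Fin q) (fun (a _ : Z) => 4 * (if 16 * s < |y a| then y a ^ 2 else 0))
      (fun z => ∏ i, gc v w s i (y (z i)))
    simp only [av_const, hprodav, av_const_mul] at c1
    refine le_trans (av_mono fun x => ?_) (c1.le.trans ?_)
    · unfold T1 tl
      rcases prod01 v w s univ (fun i => y (x (some (some i)))) with h | ⟨h, hz⟩
      · simp [h]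
      · have hz' := abs_le.1 (hδ2 _ hz)
        simp only [h, mul_one]
        split_ifs with ht
        · have : |y (x none) + (y (x (some none)) + ∑ i, y (x (some (some i)))) -
              y (x (some none)) - s0| ≤ 2 * |y (x none)| := by
            have := le_abs_self (y (x none))
            have := neg_abs_le (y (x none))
            rw [hs0]
            exact abs_le.2 ⟨by linarith, by linarith⟩
          have h5 := pow_le_pow_left₀ (abs_nonneg _) this 2
          rw [sq_abs, mul_pow, sq_abs] at h5
          linarith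
        · simp
    · nlinarith
  -- negative term
  have b3 : 3 / 4 * s ^ 2 * P ≤ av (fun x : Option (Option (Fin q)) → Z =>
      (y (x none) + (y (x (some none)) + ∑ i, y (x (some (some i)))) - y (x none) - s0) ^ 2 *
        T3 v w s (fun k => y (x k))) := by
    have c1 := av_three (κ := Fin q) (fun (_ b : Z) => s ^ 2 * gs s (y b))
      (fun z => ∏ i, gc v w s i (y (z i)))
    simp only [av_const, hprodav, av_const_mul] at c1
    have c2 : s ^ 2 - 1 / 4 * av (fun z => y z ^ 2) ≤ s ^ 2 * av (fun b => gs s (y b)) := by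
      rw [← av_const_mul, ← av_const_mul, ← av_const (X := Z) (s ^ 2), ← av_sub]
      refine av_mono fun z => ?_
      simp only [av_const]
      unfold gs
      split_ifs with h
      · nlinarith [sq_nonneg (y z)]
      · have h5 := pow_le_pow_left₀ (by positivity) (not_le.1 h).le 2
        rw [sq_abs] at h5
        nlinarith
    refine le_trans (le_trans ?_ c1.ge) (av_mono fun x => ?_)
    · nlinarith
    · unfold T3 gs
      rcases prod01 v w s univ (fun i => y (x (some (some i)))) with h | ⟨h, hz⟩
      · simp [h]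
      · have hz' := abs_le.1 (hδ2 _ hz)
        simp only [h, mul_one]
        split_ifs with ht
        · have ht' := abs_le.1 ht
          rw [mul_one, mul_one]
          refine pow_le_pow_left₀ hs.le ?_ 2
          rw [hs0]
          linarith
        · simp
  -- main terms
  have b2 : ∀ k, av (fun x : Option (Option (Fin q)) → Z =>
      (y (x none) + (y (x (some none)) + ∑ i, y (x (some (some i)))) - y (x (some (some k))) - s0) ^ 2 *
        T2 v w s sel k (fun k => y (x k))) ≤
        av (fun a => av (fun b => pc s sel k (y a) (y b))) * (s ^ 2 / 8 * P) := by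
    intro k
    have c1 := av_three (κ := Fin q) (fun (a b : Z) => pc s sel k (y a) (y b))
      (fun z => 2 * ((Δ + w) * s) ^ 2 * ∏ i ∈ univ.erase k, gc v w s i (y (z i)) +
        2 * ((∑ i ∈ univ.erase k, (y (z i) - u i)) ^ 2 * ∏ i ∈ univ.erase k, gc v w s i (y (z i))))
    refine le_trans (av_mono fun x => ?_) (c1.le.trans ?_)
    · unfold T2
      have hG : 0 ≤ ∏ i ∈ univ.erase k, gc v w s i (y (x (some (some i)))) :=
        prod_nonneg fun i _ => gc_nonneg _ _ _ _ _
      set G := ∏ i ∈ univ.erase k, gc v w s i (y (x (some (some i))))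
      set D := ∑ i ∈ univ.erase k, (y (x (some (some i))) - u i) with hD
      have e : y (x none) + (y (x (some none)) + ∑ i, y (x (some (some i)))) -
          y (x (some (some k))) - s0 = (y (x none) + y (x (some none)) + 4 * s - u k) + D := by
        rw [hD, hs0, sum_erase_eq_sub (mem_univ k), sum_sub_distrib]; ring
      rw [e]
      unfold pc tl gs
      by_cases g1 : 16 * s < |y (x none)|
      · simp [g1]
      by_cases g2 : ¬ |y (x (some none))| ≤ 2 * s
      · simp [g2]
      by_cases g5 : ¬ sel (y (x none) + y (x (some none))) = k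
      · simp [g5]
      rw [not_not] at g2 g5
      simp only [g1, g2, g5, if_true, if_false, sub_zero, mul_one, one_mul]
      have g6 : |y (x none) + y (x (some none))| ≤ 18 * s := by
        have := abs_add_le (y (x none)) (y (x (some none)))
        linarith [not_lt.1 g1]
      have g7 := hsel _ g6
      rw [g5] at g7
      have g8 : |y (x none) + y (x (some none)) + 4 * s - u k| ≤ (Δ + w) * s := by
        have a1 := abs_le.1 (huv k)
        have a2 := abs_le.1 g7
        exact abs_le.2 ⟨by linarith, by linarith⟩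
      have g9 := pow_le_pow_left₀ (abs_nonneg _) g8 2
      rw [sq_abs] at g9
      set R := y (x none) + y (x (some none)) + 4 * s - u k
      have : (R + D) ^ 2 ≤ 2 * ((Δ + w) * s) ^ 2 + 2 * D ^ 2 := by nlinarith [sq_nonneg (R - D)]
      nlinarith [mul_le_mul_of_nonneg_right this hG]
    · refine mul_le_mul_of_nonneg_left ?_
        (av_nonneg fun a => av_nonneg fun b => pc_nonneg _ _ _ _ _)
      rw [av_add, av_const_mul, av_const_mul, hprodav]
      have c2 := av_wsm (κ := Fin q) (fun i z => gc v w s i (y z)) (fun i z => y z - u i)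
        ((2 * (w * s)) ^ 2) hδ0 (fun i z => gc_nonneg _ _ _ _ _) (by
          intro i z
          unfold gc
          split_ifs with h
          · have := pow_le_pow_left₀ (abs_nonneg _) (hδ1 i _ h) 2
            rw [sq_abs] at this
            simpa using this
          · simp) (univ.erase k)
      have hQ : 0 ≤ ∏ i ∈ univ.erase k, π i := prod_nonneg fun i _ => (hπpos i).le
      have hPQ : P = π k * ∏ i ∈ univ.erase k, π i := (mul_prod_erase univ π (mem_univ k)).symm
      have hcard : ((univ.erase k).card : ℝ) ≤ q := by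
        have : (univ.erase k).card ≤ q := by
          simp
        exact_mod_cast this
      change _ ≤ _ * _ * ∏ i ∈ univ.erase k, π i at c2
      set Q := ∏ i ∈ univ.erase k, π i
      have c3 : ((univ.erase k).card : ℝ) * (2 * (w * s)) ^ 2 * Q ≤ q * (2 * (w * s)) ^ 2 * Q := by
        gcongr
      have c4 : (2 * (Δ + w) ^ 2 + 8 * q * w ^ 2) * (s ^ 2 * Q) ≤ π k / 8 * (s ^ 2 * Q) :=
        mul_le_mul_of_nonneg_right (by linarith [hcell k]) (by positivity)
      rw [hPQ]
      nlinarith
  have b4 := sum_le_sum (s := univ) fun k _ => b2 k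
  rw [← sum_mul] at b4
  have b5 : ∑ k, av (fun a => av (fun b => pc s sel k (y a) (y b))) ≤ 1 := by
    rw [← av_sum, ← av_const (X := Z) 1]
    refine av_mono fun a => ?_
    rw [← av_sum, ← av_const (X := Z) 1]
    exact av_mono fun b => sum_pc_le _ _ _ _
  have b6 := mul_le_mul_of_nonneg_right b5 (by positivity : 0 ≤ s ^ 2 / 8 * P)
  have b7 : s ^ 2 / 2 * π0 ^ q ≤ s ^ 2 / 2 * P := mul_le_mul_of_nonneg_left hPge (by positivity)
  linarith

end Crest.Agent.GS
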