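import Mathlib

set_option autoImplicit false

namespace Crest.Agent.GS

open Finset

/-- sign of a bit -/
def sg (b : Bool) : ℝ := if b then 1 else -1

/-- span of `d`-juntas -/
def Low (ι : Type) (d : ℕ) : Submodule ℝ ((ι → Bool) → ℝ) :=
  Submodule.span ℝ {G | ∃ T : Finset ι, T.card ≤ d ∧ ∀ x y, (∀ i ∈ T, x i = y i) → G x = G y}

variable {ι : Type}

lemma low_mono {a b : ℕ} (h : a ≤ b) {F : (ι → Bool) → ℝ} (hF : F ∈ Low ι a) : F ∈ Low ι b := by
  refine Submodule.span_mono ?_ hF
  rintro G ⟨T, hT, hG⟩
  exact ⟨T, hT.trans h, hG⟩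

lemma low_const (d : ℕ) (c : ℝ) : (fun _ : ι → Bool => c) ∈ Low ι d :=
  Submodule.subset_span ⟨∅, by simp, fun _ _ _ => rfl⟩

lemma low_mul {a b : ℕ} {F G : (ι → Bool) → ℝ} (hF : F ∈ Low ι a) (hG : G ∈ Low ι b) :
    (fun x => F x * G x) ∈ Low ι (a + b) := by
  classical
  induction hF using Submodule.span_induction with
  | mem F hF =>
    induction hG using Submodule.span_induction with
    | mem G hG =>
      obtain ⟨T, hT, hF⟩ := hF
      obtain ⟨U, hU, hG⟩ := hG
      refine Submodule.subset_span ⟨T ∪ U, (card_union_le _ _).trans (add_le_add hT hU), ?_⟩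
      intro x y h
      show F x * G x = F y * G y
      rw [hF x y fun i hi => h i (mem_union_left _ hi), hG x y fun i hi => h i (mem_union_right _ hi)]
    | zero => simpa using low_const (a + b) 0
    | add G H _ _ h1 h2 =>
      have := (Low ι (a + b)).add_mem h1 h2
      convert this using 1
      funext x; simp [mul_add]
    | smul c G _ h1 =>
      have := (Low ι (a + b)).smul_mem c h1
      convert this using 1
      funext x; simp; ring
  | zero => simpa using low_const (a + b) 0
  | add F H _ _ h1 h2 =>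
    have := (Low ι (a + b)).add_mem h1 h2
    convert this using 1
    funext x; simp [add_mul]
  | smul c F _ h1 =>
    have := (Low ι (a + b)).smul_mem c h1
    convert this using 1
    funext x; simp; ring

lemma low_prod {κ : Type} (s : Finset κ) (d : κ → ℕ) (F : κ → (ι → Bool) → ℝ)
    (h : ∀ k ∈ s, F k ∈ Low ι (d k)) : (fun x => ∏ k ∈ s, F k x) ∈ Low ι (∑ k ∈ s, d k) := by
  classical
  induction s using Finset.induction_on with
  | empty => simpa using low_const 0 1
  | insert j s hj ih =>
    simp only [prod_insert hj, sum_insert hj]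
    exact low_mul (h j (mem_insert_self _ _)) (ih fun k hk => h k (mem_insert_of_mem hk))

lemma low_sum {κ : Type} (s : Finset κ) (d : ℕ) (F : κ → (ι → Bool) → ℝ)
    (h : ∀ k ∈ s, F k ∈ Low ι d) : (fun x => ∑ k ∈ s, F k x) ∈ Low ι d := by
  have := (Low ι d).sum_mem h
  convert this using 1
  funext x; simp

lemma low_comp {ι' : Type} (e : ι → ι') {d : ℕ} {F : (ι → Bool) → ℝ} (hF : F ∈ Low ι d) :
    (fun x : ι' → Bool => F (fun i => x (e i))) ∈ Low ι' d := by
  classical
  induction hF using Submodule.span_induction with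
  | mem F hF =>
    obtain ⟨T, hT, hF⟩ := hF
    refine Submodule.subset_span ⟨T.image e, card_image_le.trans hT, ?_⟩
    intro x y h
    exact hF _ _ fun i hi => h _ (mem_image_of_mem e hi)
  | zero => simpa using low_const d 0
  | add F H _ _ h1 h2 => exact (Low ι' d).add_mem h1 h2
  | smul c F _ h1 => exact (Low ι' d).smul_mem c h1

lemma low_fourier [Fintype ι] [DecidableEq ι] {d : ℕ} {F : (ι → Bool) → ℝ} (hF : F ∈ Low ι d)
    (S : Finset ι) (hS : d < S.card) : ∑ x : ι → Bool, F x * ∏ i ∈ S, sg (x i) = 0 := by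
  induction hF using Submodule.span_induction with
  | mem F hF =>
    obtain ⟨T, hT, hF⟩ := hF
    obtain ⟨j, hjS, hjT⟩ := exists_mem_notMem_of_card_lt_card (lt_of_le_of_lt hT hS)
    refine sum_involution (fun x _ => Function.update x j (!x j)) ?_ ?_ (fun _ _ => mem_univ _) ?_
    · intro x _
      have h1 : F (Function.update x j (!x j)) = F x := by
        refine hF _ _ fun i hi => ?_
        rw [Function.update_of_ne (ne_of_mem_of_not_mem hi hjT)]
      have h2 : ∏ i ∈ S, sg (Function.update x j (!x j) i) = -∏ i ∈ S, sg (x i) := by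
        rw [← mul_prod_erase _ _ hjS, ← mul_prod_erase S _ hjS, Function.update_self]
        have : ∏ i ∈ S.erase j, sg (Function.update x j (!x j) i) = ∏ i ∈ S.erase j, sg (x i) :=
          prod_congr rfl fun i hi => by rw [Function.update_of_ne (ne_of_mem_erase hi)]
        rw [this]
        cases x j <;> simp [sg]
      rw [h1, h2]; ring
    · intro x _ _ h
      have := congrFun h j
      simp at this
    · intro x _
      simp
  | zero => simp
  | add F H _ _ h1 h2 => simp [add_mul, sum_add_distrib, h1, h2]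
  | smul c F _ h1 =>
    simp only [Pi.smul_apply, smul_eq_mul, mul_assoc, ← mul_sum, h1, mul_zero]

open Classical in
/-- if all fibres of `τ` have low degree indicators then so has every function of `τ` -/
lemma low_of_fibres [Fintype ι] [DecidableEq ι] {β : Type} (τ : (ι → Bool) → β) (d : ℕ)
    (P : β → Prop) (hτ : ∀ x0, P (τ x0) → (fun x => if τ x = τ x0 then (1 : ℝ) else 0) ∈ Low ι d)
    (h : β → ℝ) (hP : ∀ b, ¬ P b → h b = 0) : (fun x => h (τ x)) ∈ Low ι d := by
  have : (fun x => h (τ x)) = fun x => ∑ b ∈ (univ.image τ).filter P,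
      h b * (if τ x = b then (1 : ℝ) else 0) := by
    funext x
    simp only [mul_ite, mul_one, mul_zero]
    rw [sum_ite_eq]
    split_ifs with h1
    · rfl
    · apply hP
      intro h2
      exact h1 (mem_filter.2 ⟨mem_image_of_mem _ (mem_univ _), h2⟩)
  rw [this]
  refine low_sum _ _ _ fun b hb => ?_
  obtain ⟨hb1, hb2⟩ := mem_filter.1 hb
  obtain ⟨x0, _, rfl⟩ := mem_image.1 hb1
  exact (Low ι d).smul_mem (h (τ x0)) (hτ x0 hb2)

end Crest.Agent.GS
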