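import Mathlib
import Crest.Agent.GS.Av
import Crest.Agent.GS.Low

set_option autoImplicit false

namespace Crest.Agent.GS

open Finset

/-- sum of all signs -/
def SS {ι : Type} [Fintype ι] (x : ι → Bool) : ℝ := ∑ i, sg (x i)

lemma av_SS (ι : Type) [Fintype ι] [DecidableEq ι] : av (SS (ι := ι)) = 0 := by
  refine av_sum_zero sg ?_ univ
  simp [av, sg]

lemma low_congr {ι : Type} {d : ℕ} {F G : (ι → Bool) → ℝ} (hF : F ∈ Low ι d)
    (h : ∀ x, F x = G x) : G ∈ Low ι d := by
  have : F = G := funext h
  rwa [← this]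

open Classical in
/-- a partition of a cube into parts of prescribed degree, with conditional means -/
structure CSym where
  ι : Type
  [fι : Fintype ι]
  [dι : DecidableEq ι]
  α : Type
  σ : (ι → Bool) → α
  val : α → ℝ
  cost : α → ℕ
  low : ∀ a, (fun x => if σ x = a then (1 : ℝ) else 0) ∈ Low ι (cost a)
  ce : ∀ h : α → ℝ, av (fun x => SS x * h (σ x)) = av (fun x => val (σ x) * h (σ x))

attribute [instance] CSym.fι CSym.dι

namespace CSym

/-- expectation of a function of the symbol -/
noncomputable def E (Y : CSym) (F : Y.α → ℝ) : ℝ := av (fun x => F (Y.σ x))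

lemma E_nonneg (Y : CSym) {F : Y.α → ℝ} (h : ∀ a, 0 ≤ F a) : 0 ≤ Y.E F :=
  av_nonneg fun _ => h _

lemma E_mono (Y : CSym) {F G : Y.α → ℝ} (h : ∀ a, F a ≤ G a) : Y.E F ≤ Y.E G :=
  av_mono fun _ => h _

lemma E_congr (Y : CSym) {F G : Y.α → ℝ} (h : ∀ a, F a = G a) : Y.E F = Y.E G :=
  av_congr fun _ => h _

lemma E_add (Y : CSym) (F G : Y.α → ℝ) : Y.E (fun a => F a + G a) = Y.E F + Y.E G :=
  av_add _ _

lemma E_sub (Y : CSym) (F G : Y.α → ℝ) : Y.E (fun a => F a - G a) = Y.E F - Y.E G :=
  av_sub _ _

lemma E_const_mul (Y : CSym) (c : ℝ) (F : Y.α → ℝ) : Y.E (fun a => c * F a) = c * Y.E F :=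
  av_const_mul _ _

lemma E_const (Y : CSym) (c : ℝ) : Y.E (fun _ => c) = c := av_const c

lemma E_val (Y : CSym) : Y.E Y.val = 0 := by
  have := Y.ce (fun _ => 1)
  simp only [mul_one] at this
  unfold E
  rw [← this]
  exact av_SS _

/-- transfer to product space -/
lemma av_curry {ι κ : Type} [Fintype ι] [DecidableEq ι] [Fintype κ] [DecidableEq κ]
    (F : (κ → ι → Bool) → ℝ) :
    av (fun x : κ × ι → Bool => F (fun k i => x (k, i))) = av F :=
  av_equiv (Equiv.curry κ ι Bool) F

open Classical in
/-- independent copies -/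
noncomputable def pow (Y : CSym) (κ : Type) [Fintype κ] [DecidableEq κ] : CSym where
  ι := κ × Y.ι
  α := κ → Y.α
  σ := fun x k => Y.σ (fun i => x (k, i))
  val := fun a => ∑ k, Y.val (a k)
  cost := fun a => ∑ k, Y.cost (a k)
  low := by
    intro a
    have h := low_prod (ι := κ × Y.ι) univ (fun k => Y.cost (a k))
      (fun k x => if Y.σ (fun i => x (k, i)) = a k then (1 : ℝ) else 0)
      (fun k _ => low_comp (fun i => (k, i)) (Y.low (a k)))
    convert h using 2 with x
    rw [prod_boole]
    simp [funext_iff]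
  ce := by
    intro h
    have h1 := av_curry (ι := Y.ι) (κ := κ)
      (fun x => (∑ k, SS (x k)) * h (fun k => Y.σ (x k)))
    have h2 := av_curry (ι := Y.ι) (κ := κ)
      (fun x => (∑ k, Y.val (Y.σ (x k))) * h (fun k => Y.σ (x k)))
    have h3 : ∀ x : κ × Y.ι → Bool, SS x = ∑ k, SS (fun i => x (k, i)) := by
      intro x
      simp [SS, Fintype.sum_prod_type]
    simp only [h3]
    rw [h1, h2]
    simp only [sum_mul, av_sum]
    refine sum_congr rfl fun k _ => ?_
    rw [av_update _ k, av_update (fun x : κ → Y.ι → Bool =>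
      Y.val (Y.σ (x k)) * h (fun k => Y.σ (x k))) k]
    refine av_congr fun x => ?_
    simp only [Function.update_self]
    have h4 : ∀ z, (fun j => Y.σ (Function.update x k z j)) =
        Function.update (fun j => Y.σ (x j)) k (Y.σ z) := by
      intro z; funext j
      by_cases hj : j = k
      · subst hj; simp
      · simp [Function.update_of_ne hj]
    simp only [h4]
    exact Y.ce (fun a => h (Function.update (fun j => Y.σ (x j)) k a))

lemma pow_E (Y : CSym) (κ : Type) [Fintype κ] [DecidableEq κ] (F : (κ → Y.α) → ℝ) :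
    (Y.pow κ).E F = av (fun x : κ → Y.ι → Bool => F (fun k => Y.σ (x k))) :=
  av_curry (ι := Y.ι) (κ := κ) (fun x => F (fun k => Y.σ (x k)))

open Classical in
/-- mean of the value on a merged part -/
noncomputable def mean (Y : CSym) (B : Y.α → Prop) : ℝ :=
  Y.E (fun a => if B a then Y.val a else 0) / Y.E (fun a => if B a then 1 else 0)

open Classical in
lemma mean_mul (Y : CSym) (B : Y.α → Prop) :
    Y.mean B * Y.E (fun a => if B a then 1 else 0) = Y.E (fun a => if B a then Y.val a else 0) := by
  by_cases h : Y.E (fun a => if B a then 1 else 0) = 0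
  · rw [h, mul_zero]
    have h1 := eq_zero_of_av_eq_zero (f := fun x => if B (Y.σ x) then (1 : ℝ) else 0)
      (fun x => by split_ifs <;> norm_num) h
    refine (av_zero (X := Y.ι → Bool)).symm.trans (av_congr fun x => ?_)
    have := h1 x
    by_cases hB : B (Y.σ x)
    · simp [hB] at this
    · simp [hB]
  · unfold mean
    field_simp

open Classical in
/-- merge all symbols in `B` into one part -/
noncomputable def merge (Y : CSym) (B : Y.α → Prop) (c : ℕ)
    (hB : (fun x => if B (Y.σ x) then (1 : ℝ) else 0) ∈ Low Y.ι c) : CSym where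
  ι := Y.ι
  α := Option Y.α
  σ := fun x => if B (Y.σ x) then none else some (Y.σ x)
  val := fun o => o.elim (Y.mean B) Y.val
  cost := fun o => o.elim c (fun a => if B a then 0 else Y.cost a)
  low := by
    intro o
    cases o with
    | none =>
      refine low_congr hB fun x => ?_
      by_cases h : B (Y.σ x) <;> simp [h]
    | some a =>
      by_cases ha : B a
      · convert low_const (ι := Y.ι) _ 0 using 2 with x
        by_cases h : B (Y.σ x)
        · simp [h]
        · simp only [h, if_false, Option.some.injEq]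
          rw [if_neg]
          rintro rfl
          exact h ha
      · simp only [Option.elim, ha, if_false]
        convert Y.low a using 2 with x
        by_cases h : B (Y.σ x)
        · simp only [h, if_true]
          rw [if_neg (by simp), if_neg]
          rintro rfl
          exact ha h
        · simp [h]
  ce := by
    intro h
    rw [Y.ce (fun a => h (if B a then none else some a))]
    have h1 := Y.mean_mul B
    have e1 : (fun x => Y.val (Y.σ x) * h (if B (Y.σ x) then none else some (Y.σ x))) =
        fun x => h none * (if B (Y.σ x) then Y.val (Y.σ x) else 0) +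
          (if B (Y.σ x) then 0 else Y.val (Y.σ x) * h (some (Y.σ x))) := by
      funext x; split_ifs <;> ring
    have e2 : (fun x => (if B (Y.σ x) then none else some (Y.σ x) : Option Y.α).elim (Y.mean B) Y.val *
        h (if B (Y.σ x) then none else some (Y.σ x))) =
        fun x => (h none * Y.mean B) * (if B (Y.σ x) then 1 else 0) +
          (if B (Y.σ x) then 0 else Y.val (Y.σ x) * h (some (Y.σ x))) := by
      funext x; split_ifs <;> simp [mul_comm]
    rw [e1, e2, av_add, av_add, av_const_mul, av_const_mul]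
    unfold E at h1
    rw [mul_assoc, h1]

open Classical in
lemma merge_E (Y : CSym) (B : Y.α → Prop) (c : ℕ)
    (hB : (fun x => if B (Y.σ x) then (1 : ℝ) else 0) ∈ Low Y.ι c) (F : Option Y.α → ℝ) :
    (Y.merge B c hB).E F = Y.E (fun a => if B a then F none else F (some a)) := by
  unfold E
  refine av_congr fun x => ?_
  show F (if B (Y.σ x) then none else some (Y.σ x)) =
    if B (Y.σ x) then F none else F (some (Y.σ x))
  split_ifs <;> rfl

open Classical in
lemma E_sq_shift (Y : CSym) (B : Y.α → Prop) (s0 : ℝ) :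
    Y.E (fun a => if B a then (Y.val a - s0) ^ 2 else 0) =
      Y.E (fun a => if B a then Y.val a ^ 2 else 0) -
        (2 * s0 * Y.mean B - s0 ^ 2) * Y.E (fun a => if B a then 1 else 0) := by
  have h1 := Y.mean_mul B
  unfold E at h1 ⊢
  have e1 : (fun x => if B (Y.σ x) then (Y.val (Y.σ x) - s0) ^ 2 else 0) =
      fun x => (if B (Y.σ x) then Y.val (Y.σ x) ^ 2 else 0) +
        ((-2 * s0) * (if B (Y.σ x) then Y.val (Y.σ x) else 0) +
          s0 ^ 2 * (if B (Y.σ x) then 1 else 0)) := by
    funext x; split_ifs <;> ring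
  rw [e1, av_add, av_add, av_const_mul, av_const_mul, ← h1]; ring

open Classical in
lemma mean_sq_le (Y : CSym) (B : Y.α → Prop) :
    Y.mean B ^ 2 * Y.E (fun a => if B a then 1 else 0) ≤
      Y.E (fun a => if B a then Y.val a ^ 2 else 0) := by
  have h1 := Y.E_sq_shift B (Y.mean B)
  have h2 : 0 ≤ Y.E (fun a => if B a then (Y.val a - Y.mean B) ^ 2 else 0) :=
    Y.E_nonneg fun x => by split_ifs <;> positivity
  nlinarith

open Classical in
/-- splitting an expectation of the merged symbol -/
lemma merge_E' (Y : CSym) (B : Y.α → Prop) (c : ℕ)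
    (hB : (fun x => if B (Y.σ x) then (1 : ℝ) else 0) ∈ Low Y.ι c) (f : ℝ → ℝ) :
    (Y.merge B c hB).E (fun o => f ((Y.merge B c hB).val o)) =
      Y.E (fun a => f (Y.val a)) - Y.E (fun a => if B a then f (Y.val a) else 0) +
        f (Y.mean B) * Y.E (fun a => if B a then 1 else 0) := by
  rw [merge_E, ← E_const_mul, ← E_sub, ← E_add]
  refine Y.E_congr fun a => ?_
  show (if B a then f (Y.mean B) else f (Y.val a)) = _
  by_cases h : B a <;> simp [h]

open Classical in
lemma merge_var_ge (Y : CSym) (B : Y.α → Prop) (c : ℕ)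
    (hB : (fun x => if B (Y.σ x) then (1 : ℝ) else 0) ∈ Low Y.ι c) (s0 : ℝ) :
    Y.E (fun a => Y.val a ^ 2) - Y.E (fun a => if B a then (Y.val a - s0) ^ 2 else 0) ≤
      (Y.merge B c hB).E (fun o => (Y.merge B c hB).val o ^ 2) := by
  rw [merge_E' Y B c hB (fun t => t ^ 2), E_sq_shift]
  have h2 : 0 ≤ Y.E (fun a => if B a then 1 else 0) :=
    Y.E_nonneg fun x => by split_ifs <;> norm_num
  nlinarith [mul_nonneg h2 (sq_nonneg (Y.mean B - s0))]

open Classical in
lemma merge_var_le (Y : CSym) (B : Y.α → Prop) (c : ℕ)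
    (hB : (fun x => if B (Y.σ x) then (1 : ℝ) else 0) ∈ Low Y.ι c) :
    (Y.merge B c hB).E (fun o => (Y.merge B c hB).val o ^ 2) ≤ Y.E (fun a => Y.val a ^ 2) := by
  rw [merge_E' Y B c hB (fun t => t ^ 2)]
  have := Y.mean_sq_le B
  linarith

/-- raise all costs to a common bound -/
noncomputable def recost (Y : CSym) (d : ℕ) (hd : ∀ a, Y.cost a ≤ d) : CSym where
  ι := Y.ι
  α := Y.α
  σ := Y.σ
  val := Y.val
  cost := fun _ => d
  low := fun a => low_mono (hd a) (Y.low a)
  ce := Y.ce

/-- a single bit -/
noncomputable def bit : CSym where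
  ι := Unit
  α := Bool
  σ := fun x => x ()
  val := sg
  cost := fun _ => 1
  low := fun a => Submodule.subset_span ⟨{()}, by simp, fun x y h => by
    have := h () (by simp)
    simp [this]⟩
  ce := by
    intro h
    simp [SS]

end CSym

end Crest.Agent.GS
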