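import Mathlib
import Crest.Agent.GS.Sym
import Crest.Agent.GS.CLT

set_option autoImplicit false

namespace Crest.Agent.GS

open Finset MeasureTheory ProbabilityTheory Filter Topology

/-- roughly Gaussian symbol of worst case degree `d` at scale `s` -/
structure Good {q : ℕ} (v : Fin q → ℝ) (w π0 : ℝ) (X : CSym) (d : ℕ) (s : ℝ) : Prop where
  cost_eq : ∀ a, X.cost a = d
  dpos : 0 < d
  spos : 0 < s
  var_le : X.E (fun a => X.val a ^ 2) ≤ s ^ 2
  tail : X.E (fun a => if 16 * s < |X.val a| then X.val a ^ 2 else 0) ≤ s ^ 2 / 32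
  cell : ∀ k, π0 ≤ X.E (fun a => if |X.val a - v k * s| < w * s then 1 else 0)

open Classical in
lemma bad_sq_le (W : CSym) (B : W.α → Prop) (s ε : ℝ) (hs : 0 < s) (hε : 0 < ε)
    (h4 : W.E (fun a => W.val a ^ 4) ≤ 4 * s ^ 4)
    (hB : W.E (fun a => if B a then 1 else 0) ≤ ε ^ 2 / 4) :
    W.E (fun a => if B a then W.val a ^ 2 else 0) ≤ ε * s ^ 2 := by
  have h1 : W.E (fun a => if B a then W.val a ^ 2 else 0) ≤
      W.E (fun a => (ε / (8 * s ^ 2)) * W.val a ^ 4 + (2 * s ^ 2 / ε) * (if B a then 1 else 0)) := by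
    refine W.E_mono fun a => ?_
    split_ifs
    · have : (ε / (8 * s ^ 2)) * W.val a ^ 4 + (2 * s ^ 2 / ε) * 1 - W.val a ^ 2 =
          (ε * W.val a ^ 2 - 4 * s ^ 2) ^ 2 / (8 * s ^ 2 * ε) := by
        field_simp; ring
      have h2 : 0 ≤ (ε * W.val a ^ 2 - 4 * s ^ 2) ^ 2 / (8 * s ^ 2 * ε) := by positivity
      linarith
    · positivity
  rw [W.E_add, W.E_const_mul, W.E_const_mul] at h1
  have h2 : (ε / (8 * s ^ 2)) * W.E (fun a => W.val a ^ 4) ≤ (ε / (8 * s ^ 2)) * (4 * s ^ 4) :=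
    mul_le_mul_of_nonneg_left h4 (by positivity)
  have h3 : (2 * s ^ 2 / ε) * W.E (fun a => if B a then 1 else 0) ≤ (2 * s ^ 2 / ε) * (ε ^ 2 / 4) :=
    mul_le_mul_of_nonneg_left hB (by positivity)
  have h5 : (ε / (8 * s ^ 2)) * (4 * s ^ 4) = ε * s ^ 2 / 2 := by field_simp; ring
  have h6 : (2 * s ^ 2 / ε) * (ε ^ 2 / 4) = ε * s ^ 2 / 2 := by field_simp; ring
  linarith

open Classical in
lemma trunc_good {q : ℕ} (v : Fin q → ℝ) (w π0 : ℝ) (W : CSym) (d : ℕ) (hd : 0 < d) (s ε : ℝ)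
    (hs : 0 < s) (hε : 0 < ε) (hε1 : ε ≤ 1 / 64)
    (h2 : W.E (fun a => W.val a ^ 2) = s ^ 2)
    (h4 : W.E (fun a => W.val a ^ 4) ≤ 4 * s ^ 4)
    (hB : W.E (fun a => if d < W.cost a then 1 else 0) ≤ ε ^ 2 / 4)
    (hB' : W.E (fun a => if d < W.cost a then 1 else 0) ≤ π0 / 2)
    (hcell : ∀ k, 3 * π0 / 2 ≤ W.E (fun a => if |W.val a - v k * s| < w * s then 1 else 0)) :
    ∃ X : CSym, Good v w π0 X d s ∧ (1 - ε) * s ^ 2 ≤ X.E (fun a => X.val a ^ 2) := by
  obtain ⟨B, hBd⟩ : ∃ B : W.α → Prop, ∀ a, B a ↔ d < W.cost a := ⟨_, fun _ => Iff.rfl⟩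
  have hlow : (fun x => if B (W.σ x) then (1 : ℝ) else 0) ∈ Low W.ι d := by
    have h1 := low_of_fibres W.σ d (fun a => ¬ B a)
      (fun x0 hx => low_mono (not_lt.1 (mt (hBd _).2 hx)) (W.low _)) (fun a => if B a then 0 else 1)
      (fun b hb => by simp [not_not.1 hb])
    refine low_congr ((Low W.ι d).sub_mem (low_const d 1) h1) fun x => ?_
    by_cases h : B (W.σ x) <;> simp [h]
  have hB0 : W.E (fun a => if B a then 1 else 0) ≤ ε ^ 2 / 4 := by
    simpa only [hBd] using hB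
  have hB1 : W.E (fun a => if B a then 1 else 0) ≤ π0 / 2 := by
    simpa only [hBd] using hB'
  have hbad := bad_sq_le W B s ε hs hε h4 hB0
  have hcost : ∀ a, (W.merge B d hlow).cost a ≤ d := by
    intro a
    cases a with
    | none => exact le_rfl
    | some a =>
      show (if B a then 0 else W.cost a) ≤ d
      split_ifs with h
      · exact Nat.zero_le _
      · exact not_lt.1 (mt (hBd _).2 h)
  have hp : 0 ≤ W.E (fun a => if B a then 1 else 0) :=
    W.E_nonneg fun a => by split_ifs <;> norm_num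
  refine ⟨(W.merge B d hlow).recost d hcost, ⟨fun _ => rfl, hd, hs, ?_, ?_, ?_⟩, ?_⟩
  · exact (W.merge_var_le B d hlow).trans h2.le
  · have e := W.merge_E' B d hlow (fun t => if 16 * s < |t| then t ^ 2 else 0)
    refine le_trans (le_of_eq e) ?_
    have a1 : W.E (fun a => if 16 * s < |W.val a| then W.val a ^ 2 else 0) ≤
        W.E (fun a => (1 / (256 * s ^ 2)) * W.val a ^ 4) := by
      refine W.E_mono fun a => ?_
      split_ifs with h
      · have h5 : (16 * s) ^ 2 ≤ W.val a ^ 2 := by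
          rw [← sq_abs (W.val a)]
          exact pow_le_pow_left₀ (by positivity) h.le 2
        rw [one_div, inv_mul_eq_div, le_div_iff₀ (by positivity)]
        nlinarith [sq_nonneg (W.val a)]
      · positivity
    rw [W.E_const_mul] at a1
    have a2 : (1 / (256 * s ^ 2)) * W.E (fun a => W.val a ^ 4) ≤ (1 / (256 * s ^ 2)) * (4 * s ^ 4) :=
      mul_le_mul_of_nonneg_left h4 (by positivity)
    have a3 : (1 / (256 * s ^ 2)) * (4 * s ^ 4) = s ^ 2 / 64 := by field_simp; ring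
    have a4 : 0 ≤ W.E (fun a => if B a then
        (if 16 * s < |W.val a| then W.val a ^ 2 else 0) else 0) :=
      W.E_nonneg fun a => by split_ifs <;> positivity
    have a5 : (if 16 * s < |W.mean B| then W.mean B ^ 2 else 0) *
        W.E (fun a => if B a then 1 else 0) ≤ W.mean B ^ 2 * W.E (fun a => if B a then 1 else 0) := by
      refine mul_le_mul_of_nonneg_right ?_ hp
      split_ifs
      · exact le_rfl
      · positivity
    have a6 := W.mean_sq_le B
    have a7 : ε * s ^ 2 ≤ 1 / 64 * s ^ 2 := mul_le_mul_of_nonneg_right hε1 (by positivity)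
    linarith
  · intro k
    have e := W.merge_E' B d hlow (fun t => if |t - v k * s| < w * s then 1 else 0)
    refine le_trans ?_ (le_of_eq e.symm)
    have a1 : W.E (fun a => if B a then
        (if |W.val a - v k * s| < w * s then (1 : ℝ) else 0) else 0) ≤
        W.E (fun a => if B a then 1 else 0) :=
      W.E_mono fun a => by split_ifs <;> norm_num
    have a2 : 0 ≤ (if |W.mean B - v k * s| < w * s then (1 : ℝ) else 0) *
        W.E (fun a => if B a then 1 else 0) := by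
      refine mul_nonneg ?_ hp
      split_ifs <;> norm_num
    have := hcell k
    linarith
  · have e := W.merge_var_ge B d hlow 0
    simp only [sub_zero] at e
    refine le_trans ?_ e
    linarith

theorem gaussianize {q : ℕ} (v : Fin q → ℝ) (w π0 : ℝ) (hw : 0 < w) (hπ : 0 < π0)
    (hγ : ∀ k, 2 * π0 ≤ (gaussianReal 0 1).real (Set.Ioo (v k - w) (v k + w)))
    (Y : CSym) (hV : 0 < Y.E (fun a => Y.val a ^ 2)) (hc : 0 < Y.E (fun a => (Y.cost a : ℝ)))
    (ε : ℝ) (hε : 0 < ε) (hε1 : ε ≤ 1 / 64) :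
    ∃ (X : CSym) (d : ℕ) (s : ℝ), Good v w π0 X d s ∧
      (1 - 2 * ε) * Y.E (fun a => Y.val a ^ 2) * d ≤
        Y.E (fun a => (Y.cost a : ℝ)) * X.E (fun a => X.val a ^ 2) := by
  classical
  set V := Y.E (fun a => Y.val a ^ 2) with hVdef
  set c := Y.E (fun a => (Y.cost a : ℝ)) with hcdef
  set M := Y.E (fun a => Y.val a ^ 4) with hMdef
  set Vc := Y.E (fun a => ((Y.cost a : ℝ) - c) ^ 2) with hVcdef
  have hsV : 0 < √V := Real.sqrt_pos.2 hV
  let y : (Y.ι → Bool) → ℝ := fun z => (√V)⁻¹ * Y.val (Y.σ z)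
  have hy0 : av y = 0 := by
    have := Y.E_val
    unfold CSym.E at this
    simp only [y, av_const_mul, this, mul_zero]
  have hy1 : av (fun z => y z ^ 2) = 1 := by
    simp only [y, mul_pow, av_const_mul]
    rw [inv_pow, Real.sq_sqrt hV.le]
    exact inv_mul_cancel₀ hV.ne'
  have ev1 : ∀ᶠ N : ℕ in atTop, ∀ k, 3 * π0 / 2 ≤ av (fun x : Fin N → (Y.ι → Bool) =>
      if (√N)⁻¹ * ∑ j, y (x j) ∈ Set.Ioo (v k - w) (v k + w) then (1 : ℝ) else 0) := by
    refine eventually_all.2 fun k => ?_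
    have := clt_cell y hy0 hy1 (v k - w) (v k + w) (by linarith)
    exact this.eventually (eventually_ge_nhds (by linarith [hγ k]))
  have ev2 : ∀ r : ℝ, ∀ᶠ N : ℕ in atTop, r ≤ (N : ℝ) := fun r =>
    tendsto_natCast_atTop_atTop.eventually (eventually_ge_atTop r)
  obtain ⟨N, hN1, hN2, hN3, hN4, hN5, hN6⟩ := (ev1.and ((ev2 1).and ((ev2 (M / V ^ 2)).and
    ((ev2 (Vc / (ε ^ 2 * c ^ 2 * (ε ^ 2 / 4)))).and ((ev2 (Vc / (ε ^ 2 * c ^ 2 * (π0 / 2)))).and
    (ev2 (1 / c))))))).exists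
  have hN0 : (0 : ℝ) < N := by linarith
  let W := Y.pow (Fin N)
  let d := ⌊(1 + ε) * N * c⌋₊
  have hdpos : 0 < d := by
    refine Nat.floor_pos.2 ?_
    rw [div_le_iff₀ hc] at hN6
    nlinarith [mul_pos hε (mul_pos hN0 hc)]
  have hdle : (d : ℝ) ≤ (1 + ε) * N * c := Nat.floor_le (by positivity)
  let s := √N * √V
  have hsN : 0 < √(N : ℝ) := Real.sqrt_pos.2 hN0
  have hs : 0 < s := mul_pos hsN hsV
  have hs2 : s ^ 2 = N * V := by
    simp only [s, mul_pow]
    rw [Real.sq_sqrt hN0.le, Real.sq_sqrt hV.le]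
  have hval0 : av (fun z => Y.val (Y.σ z)) = 0 := Y.E_val
  have h2 : W.E (fun a => W.val a ^ 2) = s ^ 2 := by
    rw [CSym.pow_E, hs2]
    have := av_sq_sum (κ := Fin N) (fun z => Y.val (Y.σ z)) hval0 univ
    simp only [card_univ, Fintype.card_fin] at this
    exact this
  have h4 : W.E (fun a => W.val a ^ 4) ≤ 4 * s ^ 4 := by
    rw [CSym.pow_E]
    have := av_four_sum (κ := Fin N) (fun z => Y.val (Y.σ z)) hval0 univ
    simp only [card_univ, Fintype.card_fin] at this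
    refine le_trans this ?_
    have e : s ^ 4 = (N * V) ^ 2 := by rw [← hs2]; ring
    rw [e]
    rw [div_le_iff₀ (by positivity)] at hN3
    change 3 * (N : ℝ) ^ 2 * V ^ 2 + N * M ≤ _
    nlinarith [mul_le_mul_of_nonneg_left hN3 hN0.le]
  have hB : W.E (fun a => if d < W.cost a then 1 else 0) ≤ Vc / (ε ^ 2 * c ^ 2 * N) := by
    rw [CSym.pow_E]
    have hc0 : av (fun z => (Y.cost (Y.σ z) : ℝ) - c) = 0 := by
      rw [av_sub, av_const]; exact sub_self _
    have h5 := av_sq_sum (κ := Fin N) (fun z => (Y.cost (Y.σ z) : ℝ) - c) hc0 univ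
    simp only [card_univ, Fintype.card_fin] at h5
    have h6 : av (fun x : Fin N → Y.ι → Bool =>
        if d < W.cost (fun k => Y.σ (x k)) then (1 : ℝ) else 0) ≤
        av (fun x : Fin N → Y.ι → Bool => (1 / (ε * N * c) ^ 2) *
          (∑ i, ((Y.cost (Y.σ (x i)) : ℝ) - c)) ^ 2) := by
      refine av_mono fun x => ?_
      split_ifs with h
      · have h7 : (1 + ε) * N * c < ((∑ k, Y.cost (Y.σ (x k)) : ℕ) : ℝ) :=
          (Nat.floor_lt (by positivity)).1 h
        push_cast at h7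
        rw [sum_sub_distrib]
        simp only [sum_const, card_univ, Fintype.card_fin, nsmul_eq_mul]
        rw [one_div, inv_mul_eq_div, le_div_iff₀ (by positivity), one_mul]
        exact pow_le_pow_left₀ (by positivity) (by linarith) 2
      · positivity
    refine h6.trans ?_
    rw [av_const_mul, h5]
    refine le_of_eq ?_
    change 1 / (ε * N * c) ^ 2 * (N * Vc) = _
    field_simp
  have hVc : 0 ≤ Vc := Y.E_nonneg fun a => by positivity
  have hB1 : Vc / (ε ^ 2 * c ^ 2 * N) ≤ ε ^ 2 / 4 := by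
    rw [div_le_iff₀ (by positivity)] at hN4 ⊢
    nlinarith
  have hB2 : Vc / (ε ^ 2 * c ^ 2 * N) ≤ π0 / 2 := by
    rw [div_le_iff₀ (by positivity)] at hN5 ⊢
    nlinarith
  have hcell : ∀ k, 3 * π0 / 2 ≤ W.E (fun a => if |W.val a - v k * s| < w * s then 1 else 0) := by
    intro k
    rw [CSym.pow_E]
    refine (hN1 k).trans (le_of_eq (av_congr fun x => ?_))
    have e : (√N)⁻¹ * ∑ j, y (x j) = (∑ j, Y.val (Y.σ (x j))) / s := by
      simp only [y, ← mul_sum, s]
      field_simp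
    rw [e]
    refine if_congr ?_ rfl rfl
    change _ ↔ |∑ j, Y.val (Y.σ (x j)) - v k * s| < w * s
    rw [Set.mem_Ioo, lt_div_iff₀ hs, div_lt_iff₀ hs, abs_lt]
    constructor <;> rintro ⟨h1, h2⟩ <;> constructor <;> linarith
  obtain ⟨X, hX, hXv⟩ := trunc_good v w π0 W d hdpos s ε hs hε hε1 h2 h4
    (by convert hB.trans hB1) (by convert hB.trans hB2) hcell
  refine ⟨X, d, s, hX, ?_⟩
  rw [hs2] at hXv
  have a1 : (1 - 2 * ε) * V * d ≤ (1 - 2 * ε) * V * ((1 + ε) * N * c) :=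
    mul_le_mul_of_nonneg_left hdle (mul_nonneg (by linarith) hV.le)
  have a2 : c * ((1 - ε) * (N * V)) ≤ c * X.E (fun a => X.val a ^ 2) :=
    mul_le_mul_of_nonneg_left hXv hc.le
  have a3 : 0 ≤ ε ^ 2 * (V * N * c) := by positivity
  nlinarith

end Crest.Agent.GS
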