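import Mathlib
import Crest.Agent.GS.Gauss
import Crest.Agent.GS.Gadget

set_option autoImplicit false

namespace Crest.Agent.GS

open Finset MeasureTheory ProbabilityTheory

lemma pow_omit_low (X : CSym) (d : ℕ) (hd : ∀ a, X.cost a = d) (κ : Type) [Fintype κ]
    [DecidableEq κ] (j : κ) (T : (κ → X.α) → ℝ) (hT : ∀ a b, T (Function.update a j b) = T a) :
    (fun x => T ((X.pow κ).σ x)) ∈ Low (X.pow κ).ι ((Fintype.card κ - 1) * d) := by
  classical
  let a0 : X.α := X.σ (fun _ => true)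
  have h := low_of_fibres (ι := (X.pow κ).ι) (β := κ → X.α)
    (fun x => Function.update ((X.pow κ).σ x) j a0) ((Fintype.card κ - 1) * d) (fun _ => True)
    (fun x0 _ => ?_) T (fun b hb => absurd trivial hb)
  · exact low_congr h fun x => hT _ _
  · have h := low_prod (ι := κ × X.ι) (univ.erase j) (fun _ => d)
      (fun k x => if X.σ (fun i => x (k, i)) = (X.pow κ).σ x0 k then (1 : ℝ) else 0)
      (fun k _ => by
        have := low_comp (ι' := κ × X.ι) (fun i => (k, i)) (X.low ((X.pow κ).σ x0 k))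
        rw [hd] at this
        exact this)
    simp only [sum_const, card_erase_of_mem (mem_univ j), card_univ, smul_eq_mul] at h
    refine low_congr h fun x => ?_
    rw [prod_boole]
    congr 1
    refine propext ⟨?_, ?_⟩
    · intro h1
      funext k
      by_cases hk : k = j
      · subst hk; simp
      · rw [Function.update_of_ne hk, Function.update_of_ne hk]
        exact h1 k (mem_erase.2 ⟨hk, mem_univ _⟩)
    · intro h1 k hk
      have := congrFun h1 k
      rw [Function.update_of_ne (ne_of_mem_erase hk), Function.update_of_ne (ne_of_mem_erase hk)]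
        at this
      exact this

open Classical in
theorem gadget {q : ℕ} (v : Fin q → ℝ) (w Δ π0 : ℝ) (hw : 0 < w) (hπ : 0 < π0)
    (hcov : ∀ t : ℝ, |t| ≤ 18 → ∃ k, |t + 4 - v k| ≤ Δ)
    (h2 : 2 * q * w ≤ 1) (h3 : 2 * (Δ + w) ^ 2 + 8 * q * w ^ 2 ≤ π0 / 8)
    (X : CSym) (d : ℕ) (s : ℝ) (hX : Good v w π0 X d s) (hV : 0 < X.E (fun a => X.val a ^ 2)) :
    ∃ Y : CSym, 0 < Y.E (fun a => Y.val a ^ 2) ∧ 0 < Y.E (fun a => (Y.cost a : ℝ)) ∧
      (1 + π0 ^ q / (2 * (q + 2))) * X.E (fun a => X.val a ^ 2) * Y.E (fun a => (Y.cost a : ℝ)) ≤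
        d * Y.E (fun a => Y.val a ^ 2) := by
  have hs := hX.spos
  obtain ⟨sel, hsel⟩ : ∃ sel : ℝ → Fin q,
      ∀ t, |t| ≤ 18 * s → |t + 4 * s - v (sel t) * s| ≤ Δ * s := by
    obtain ⟨k0, -⟩ := hcov 0 (by norm_num)
    have : ∀ t : ℝ, ∃ k, |t| ≤ 18 * s → |t + 4 * s - v k * s| ≤ Δ * s := by
      intro t
      by_cases ht : |t| ≤ 18 * s
      · obtain ⟨k, hk⟩ := hcov (t / s) (by rw [abs_div, abs_of_pos hs, div_le_iff₀ hs]; exact ht)
        refine ⟨k, fun _ => ?_⟩
        have e : t + 4 * s - v k * s = (t / s + 4 - v k) * s := by field_simp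
        rw [e, abs_mul, abs_of_pos hs]
        exact mul_le_mul_of_nonneg_right hk hs.le
      · exact ⟨k0, fun h => absurd h ht⟩
    choose sel hsel using this
    exact ⟨sel, hsel⟩
  obtain ⟨s0, hH⟩ := gadget_ineq v w s Δ π0 sel hw hs hπ hsel h2 h3 (fun z => X.val (X.σ z))
    X.E_val hX.var_le hX.tail hX.cell
  set V := X.E (fun a => X.val a ^ 2) with hVdef
  let W := X.pow (Option (Option (Fin q)))
  let Φ : W.α → ℝ := fun a => Phi v w s sel (fun k => X.val (a k))
  have hH' : W.E (fun a => ((W.val a - s0) ^ 2 - V) * Φ a) ≤ -(s ^ 2 / 2 * π0 ^ q) := by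
    rw [CSym.pow_E]
    exact hH
  obtain ⟨A, hA⟩ : ∃ A : W.α → Prop, ∀ a, A a ↔ Φ a = 1 := ⟨_, fun _ => Iff.rfl⟩
  have hind : ∀ (a : W.α) (r : ℝ), (if A a then r else 0) = r * Φ a := by
    intro a r
    rcases Phi01 v w s sel (fun k => X.val (a k)) with h | h
    · have h' : Φ a = 0 := h
      rw [if_neg, h', mul_zero]
      rw [hA, h']; norm_num
    · have h' : Φ a = 1 := h
      rw [if_pos ((hA a).2 h'), h', mul_one]
  have hupd : ∀ (a : W.α) (j) (b : X.α), (fun k => X.val (Function.update a j b k)) =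
      Function.update (fun k => X.val (a k)) j (X.val b) := by
    intro a j b; funext k
    by_cases hk : k = j
    · subst hk; simp
    · simp [Function.update_of_ne hk]
  have hcard : Fintype.card (Option (Option (Fin q))) - 1 = q + 1 := by simp
  have hlow : (fun x => if A (W.σ x) then (1 : ℝ) else 0) ∈ Low W.ι ((q + 1) * d) := by
    have l1 := pow_omit_low X d hX.cost_eq _ (some none)
      (fun a => T1 v w s (fun k => X.val (a k))) (fun a b => by simp only [hupd, T1_update])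
    have l3 := pow_omit_low X d hX.cost_eq _ none
      (fun a => T3 v w s (fun k => X.val (a k))) (fun a b => by simp only [hupd, T3_update])
    have l2 := fun k => pow_omit_low X d hX.cost_eq _ (some (some k))
      (fun a => T2 v w s sel k (fun k => X.val (a k))) (fun a b => by simp only [hupd, T2_update])
    rw [hcard] at l1 l3 l2
    have l4 := low_sum univ _ _ (fun k _ => l2 k)
    refine low_congr (Submodule.sub_mem _ (Submodule.add_mem _ l1 l4) l3) fun x => ?_
    rw [hind, one_mul]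
    rfl
  set p := W.E Φ with hp
  have hp1 : p ≤ 1 := by
    rw [← W.E_const 1]
    refine W.E_mono fun a => ?_
    rcases Phi01 v w s sel (fun k => X.val (a k)) with h | h
    · have h' : Φ a = 0 := h
      rw [h']; norm_num
    · exact le_of_eq h
  have hp0 : 0 ≤ p := by
    refine W.E_nonneg fun a => ?_
    rcases Phi01 v w s sel (fun k => X.val (a k)) with h | h
    · exact le_of_eq h.symm
    · have h' : Φ a = 1 := h
      rw [h']; norm_num
  have hWv : W.E (fun a => W.val a ^ 2) = (q + 2) * V := by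
    rw [CSym.pow_E]
    have := av_sq_sum (κ := Option (Option (Fin q))) (fun z => X.val (X.σ z)) X.E_val univ
    simp only [card_univ, Fintype.card_option, Fintype.card_fin] at this
    refine this.trans ?_
    push_cast
    change _ * V = _
    ring
  have hYv := W.merge_var_ge A _ hlow s0
  simp only [hind] at hYv
  have e1 : W.E (fun a => (W.val a - s0) ^ 2 * Φ a) =
      W.E (fun a => ((W.val a - s0) ^ 2 - V) * Φ a) + V * p := by
    rw [hp, ← W.E_const_mul, ← W.E_add]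
    exact W.E_congr fun a => by ring
  have hYc : (W.merge A _ hlow).E (fun a => ((W.merge A _ hlow).cost a : ℝ)) = (q + 2 - p) * d := by
    rw [CSym.merge_E]
    have : ∀ a : W.α, (if A a then (((W.merge A _ hlow).cost none : ℕ) : ℝ) else
        (((W.merge A _ hlow).cost (some a) : ℕ) : ℝ)) = (q + 2) * d - d * Φ a := by
      intro a
      rw [← hind]
      change (if A a then ((((q + 1) * d : ℕ)) : ℝ) else
        (((if A a then 0 else ∑ k, X.cost (a k)) : ℕ) : ℝ)) = _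
      by_cases h : A a
      · simp only [h, if_true]; push_cast; ring
      · simp only [h, if_false, hX.cost_eq, sum_const, card_univ, Fintype.card_option,
          Fintype.card_fin, smul_eq_mul]
        push_cast; ring
    rw [W.E_congr this, W.E_sub, W.E_const, W.E_const_mul]
    ring
  have hd : (0 : ℝ) < d := by exact_mod_cast hX.dpos
  have hq : (0 : ℝ) ≤ q := Nat.cast_nonneg q
  have hg : 0 < π0 ^ q := by positivity
  have hVs := hX.var_le
  have key : (q + 2 - p) * V + V / 2 * π0 ^ q ≤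
      (W.merge A _ hlow).E (fun o => (W.merge A _ hlow).val o ^ 2) := by
    have : V / 2 * π0 ^ q ≤ s ^ 2 / 2 * π0 ^ q :=
      mul_le_mul_of_nonneg_right (by linarith) hg.le
    linarith
  refine ⟨W.merge A _ hlow, lt_of_lt_of_le ?_ key, ?_, ?_⟩
  · have : 0 < (q + 2 - p) * V := mul_pos (by linarith) hV
    positivity
  · rw [hYc]; exact mul_pos (by linarith) hd
  · rw [hYc]
    refine le_trans ?_ (mul_le_mul_of_nonneg_left key hd.le)
    have : π0 ^ q / (2 * (q + 2)) * (q + 2 - p) ≤ π0 ^ q / 2 := by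
      rw [div_mul_eq_mul_div, div_le_div_iff₀ (by positivity) (by positivity)]
      nlinarith [mul_nonneg hg.le hp0]
    nlinarith [mul_le_mul_of_nonneg_left this (mul_pos hV hd).le]

lemma params : ∃ (q : ℕ) (v : Fin q → ℝ) (w Δ π0 : ℝ), 0 < w ∧ w ≤ 1 ∧ Δ ≤ 1 ∧ 0 < π0 ∧
    (∀ t : ℝ, |t| ≤ 18 → ∃ k, |t + 4 - v k| ≤ Δ) ∧ 2 * q * w ≤ 1 ∧
    2 * (Δ + w) ^ 2 + 8 * q * w ^ 2 ≤ π0 / 8 ∧
    ∀ k, 2 * π0 ≤ (gaussianReal 0 1).real (Set.Ioo (v k - w) (v k + w)) := by
  obtain ⟨κ, hκ, hg⟩ := gauss_cell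
  obtain ⟨n, hn⟩ := exists_nat_ge (max 74 (2432 / κ))
  have hn1 : (74 : ℝ) ≤ n := (le_max_left _ _).trans hn
  have hn2 : 2432 ≤ n * κ := by
    have := (le_max_right _ _).trans hn
    rwa [div_le_iff₀ hκ] at this
  have hn0 : (0 : ℝ) < n := by linarith
  have hw1 : 1 / (n : ℝ) ^ 3 ≤ 1 := by
    rw [div_le_one (by positivity)]; exact one_le_pow₀ (by linarith)
  refine ⟨36 * n ^ 2 + 1, fun k => -14 + (k : ℝ) / (n : ℝ) ^ 2, 1 / (n : ℝ) ^ 3, 1 / (n : ℝ) ^ 2,
    κ * (1 / (n : ℝ) ^ 3), by positivity, hw1, ?_, by positivity, ?_, ?_, ?_, ?_⟩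
  · rw [div_le_one (by positivity)]; exact one_le_pow₀ (by linarith)
  · intro t ht
    obtain ⟨h1, h2⟩ := abs_le.1 ht
    have h3 : 0 ≤ (t + 18) * (n : ℝ) ^ 2 := by
      refine mul_nonneg (by linarith) (by positivity)
    have h4 := Nat.floor_le h3
    have h5 := Nat.lt_floor_add_one ((t + 18) * (n : ℝ) ^ 2)
    have h6 : ⌊(t + 18) * (n : ℝ) ^ 2⌋₊ < 36 * n ^ 2 + 1 := by
      have : (⌊(t + 18) * (n : ℝ) ^ 2⌋₊ : ℝ) < ((36 * n ^ 2 + 1 : ℕ) : ℝ) := by
        push_cast
        nlinarith [sq_nonneg (n : ℝ)]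
      exact_mod_cast this
    refine ⟨⟨_, h6⟩, ?_⟩
    have e : t + 4 - (-14 + (⌊(t + 18) * (n : ℝ) ^ 2⌋₊ : ℝ) / (n : ℝ) ^ 2) =
        ((t + 18) * (n : ℝ) ^ 2 - ⌊(t + 18) * (n : ℝ) ^ 2⌋₊) / (n : ℝ) ^ 2 := by
      field_simp; ring
    simp only
    rw [e, abs_div, abs_of_pos (by positivity : (0 : ℝ) < (n : ℝ) ^ 2)]
    refine div_le_div_of_nonneg_right ?_ (by positivity)
    exact abs_le.2 ⟨by linarith, by linarith⟩
  · push_cast
    rw [mul_one_div, div_le_one (by positivity)]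
    nlinarith [sq_nonneg (n : ℝ), mul_le_mul_of_nonneg_right hn1 (sq_nonneg (n : ℝ))]
  · push_cast
    have e : 2 * (1 / (n : ℝ) ^ 2 + 1 / (n : ℝ) ^ 3) ^ 2 + 8 * (36 * (n : ℝ) ^ 2 + 1) *
        (1 / (n : ℝ) ^ 3) ^ 2 = (2 * (n + 1) ^ 2 + 8 * (36 * (n : ℝ) ^ 2 + 1)) / (n : ℝ) ^ 6 := by
      field_simp
    have e2 : κ * (1 / (n : ℝ) ^ 3) / 8 = (n * κ / 8 * (n : ℝ) ^ 2) / (n : ℝ) ^ 6 := by
      field_simp
    rw [e, e2]
    refine div_le_div_of_nonneg_right ?_ (by positivity)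
    nlinarith [mul_le_mul_of_nonneg_right hn2 (sq_nonneg (n : ℝ))]
  · intro k
    refine hg _ _ ?_ (by positivity) hw1
    have h1 : (0 : ℝ) ≤ (k : ℝ) / (n : ℝ) ^ 2 := by positivity
    have h2 : ((k : ℕ) : ℝ) / (n : ℝ) ^ 2 ≤ 36 := by
      rw [div_le_iff₀ (by positivity)]
      have : (k : ℕ) ≤ 36 * n ^ 2 := Nat.lt_succ_iff.1 k.2
      exact_mod_cast this
    exact abs_le.2 ⟨by linarith, by linarith⟩

theorem exists_efficient : ∃ c : ℝ, 0 < c ∧ ∀ η : ℝ, ∃ (X : CSym) (d : ℕ) (s : ℝ),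
    0 < d ∧ (∀ a, X.cost a = d) ∧ 0 < s ∧ η * d ≤ s ^ 2 ∧ c * s ≤ X.E (fun a => |X.val a|) := by
  obtain ⟨q, v, w, Δ, π0, hw, hw1, hΔ, hπ, hcov, h2, h3, hγ⟩ := params
  set g : ℝ := π0 ^ q / (2 * (q + 2)) with hg
  have hg0 : 0 < g := by positivity
  obtain ⟨ε, hε, hε1, hε2⟩ : ∃ ε : ℝ, 0 < ε ∧ ε ≤ 1 / 64 ∧ 1 + g / 2 ≤ (1 - 2 * ε) * (1 + g) := by
    refine ⟨min (1 / 64) (g / (4 * (1 + g))), by positivity, min_le_left _ _, ?_⟩
    have h1 : min (1 / 64) (g / (4 * (1 + g))) ≤ g / (4 * (1 + g)) := min_le_right _ _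
    rw [le_div_iff₀ (by positivity)] at h1
    nlinarith
  have iter : ∀ t : ℕ, ∃ (X : CSym) (d : ℕ) (s : ℝ), Good v w π0 X d s ∧
      (1 + g / 2) ^ t / 2 * d ≤ X.E (fun a => X.val a ^ 2) := by
    intro t
    induction t with
    | zero =>
      have e1 : CSym.bit.E (fun a => CSym.bit.val a ^ 2) = 1 := by
        rw [← CSym.bit.E_const 1]
        refine CSym.bit.E_congr fun a => ?_
        cases a <;> simp [CSym.bit, sg]
      have e2 : CSym.bit.E (fun a => (CSym.bit.cost a : ℝ)) = 1 := by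
        rw [← CSym.bit.E_const 1]
        refine CSym.bit.E_congr fun a => ?_
        simp [CSym.bit]
      obtain ⟨X, d, s, hX, h⟩ := gaussianize v w π0 hw hπ hγ CSym.bit (by rw [e1]; norm_num)
        (by rw [e2]; norm_num) (1 / 64) (by norm_num) le_rfl
      refine ⟨X, d, s, hX, ?_⟩
      rw [e1, e2] at h
      have : (0 : ℝ) ≤ d := Nat.cast_nonneg d
      simp only [pow_zero]
      linarith
    | succ t ih =>
      obtain ⟨X, d, s, hX, h⟩ := ih
      have hd : (0 : ℝ) < d := by exact_mod_cast hX.dpos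
      have hη : 0 < (1 + g / 2) ^ t / 2 := by positivity
      have hV : 0 < X.E (fun a => X.val a ^ 2) := lt_of_lt_of_le (mul_pos hη hd) h
      obtain ⟨Y, hY1, hY2, hY3⟩ := gadget v w Δ π0 hw hπ hcov h2 h3 X d s hX hV
      obtain ⟨X', d', s', hX', h'⟩ := gaussianize v w π0 hw hπ hγ Y hY1 hY2 ε hε hε1
      refine ⟨X', d', s', hX', ?_⟩
      have hd' : (0 : ℝ) ≤ d' := Nat.cast_nonneg d'
      set V := X.E (fun a => X.val a ^ 2)
      set VY := Y.E (fun a => Y.val a ^ 2)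
      set cY := Y.E (fun a => (Y.cost a : ℝ))
      set V' := X'.E (fun a => X'.val a ^ 2)
      set η := (1 + g / 2) ^ t / 2 with hηdef
      have a1 : (1 + g) * η * cY ≤ VY := by
        refine le_of_mul_le_mul_left ?_ hd
        refine le_trans ?_ hY3
        have := mul_le_mul_of_nonneg_left h (by positivity : 0 ≤ (1 + g) * cY)
        nlinarith
      have a2 : (1 + g / 2) * η * cY ≤ (1 - 2 * ε) * VY := by
        have b1 := mul_le_mul_of_nonneg_left a1 (by linarith : 0 ≤ 1 - 2 * ε)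
        have b2 := mul_le_mul_of_nonneg_right hε2 (by positivity : 0 ≤ η * cY)
        nlinarith
      have e : (1 + g / 2) ^ (t + 1) / 2 = (1 + g / 2) * η := by rw [hηdef]; ring
      rw [e]
      refine le_of_mul_le_mul_left ?_ hY2
      refine le_trans ?_ h'
      nlinarith [mul_le_mul_of_nonneg_right a2 hd']
  refine ⟨π0, hπ, fun η => ?_⟩
  obtain ⟨t, ht⟩ := pow_unbounded_of_one_lt (2 * η) (by linarith : 1 < 1 + g / 2)
  obtain ⟨X, d, s, hX, h⟩ := iter t
  refine ⟨X, d, s, hX.dpos, hX.cost_eq, hX.spos, ?_, ?_⟩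
  · refine le_trans ?_ (h.trans hX.var_le)
    exact mul_le_mul_of_nonneg_right (by linarith) (Nat.cast_nonneg d)
  · obtain ⟨k, hk⟩ := hcov 0 (by norm_num)
    have hk' := abs_le.1 hk
    have hs := hX.spos
    refine le_trans (mul_le_mul_of_nonneg_right (hX.cell k) hs.le) ?_
    rw [mul_comm, ← X.E_const_mul]
    refine X.E_mono fun a => ?_
    split_ifs with h1
    · have h4 := abs_lt.1 h1
      have := le_abs_self (X.val a)
      nlinarith
    · simp

end Crest.Agent.GS
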